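import Vale.Agent.P103.Bdl.B2

/-!
# P103: the fibre map is `C^∞` off the zero section over `ζ = 1`
-/

namespace Vale.Agent.P103

open Filter Topology
open scoped ContDiff

section basic

variable {m : ℕ∞}

theorem sm_S : ContDiff ℝ m S := by
  unfold S
  exact (contDiff_const.sub contDiff_id).mul
    (Real.smoothTransition.contDiff.comp (contDiff_const.mul (contDiff_const.sub contDiff_id)))

theorem sm_kk : ContDiff ℝ m kk := by
  unfold kk
  exact Real.smoothTransition.contDiff.comp (contDiff_const.sub (contDiff_const.mul contDiff_id))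

theorem sm_cutA : ContDiff ℝ m cutA := by
  unfold cutA
  exact Real.smoothTransition.contDiff.comp
    (contDiff_const.sub (contDiff_const.mul contDiff_id))

theorem sm_cutB : ContDiff ℝ m cutB := by
  unfold cutB
  exact Real.smoothTransition.contDiff.comp
    ((contDiff_const.sub (contDiff_const.mul contDiff_id)).div_const 7)

theorem sm_nu : ContDiff ℝ m (fun θ => nu (Circle.exp θ)) := by
  have h : (fun θ => nu (Circle.exp θ)) = fun θ => (1 - Real.cos θ) / 2 := funext rc_nu_exp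
  rw [h]
  exact (contDiff_const.sub Real.contDiff_cos).div_const 2

theorem sm_mx (ν : ℝ) {b : ℝ} (hb : 0 < b) :
    ContDiffAt ℝ m (fun q : ℝ × ℝ => mx q.1 q.2) (ν, b) := by
  unfold mx
  have h1 : ContDiffAt ℝ m (fun q : ℝ × ℝ => 2 - q.1 / q.2) (ν, b) :=
    contDiffAt_const.sub (contDiffAt_fst.div contDiffAt_snd hb.ne')
  exact contDiffAt_fst.add (contDiffAt_snd.mul
    (Real.smoothTransition.contDiff.contDiffAt.comp (ν, b) h1))

theorem sm_beta {a : ℝ} (ha : 0 < a) : ContDiffAt ℝ m beta a := by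
  unfold beta
  have hL := RW.log_one_add_inv_pos ha
  have h1 : ContDiffAt ℝ m (fun a : ℝ => 1 + 1 / a) a :=
    contDiffAt_const.add (contDiffAt_const.div contDiffAt_id ha.ne')
  have h2 : ContDiffAt ℝ m (fun a : ℝ => Real.log (1 + 1 / a)) a := h1.log (by positivity)
  have h3 : ContDiffAt ℝ m (fun a : ℝ => 2 * (1 + Real.log (1 + 1 / a))) a :=
    contDiffAt_const.mul (contDiffAt_const.add h2)
  exact contDiffAt_const.div h3 (by positivity)

theorem sm_term {W : Type*} [NormedAddCommGroup W] [NormedSpace ℝ W] [NormedSpace ℂ W]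
    [IsScalarTower ℝ ℂ W] {c : ℝ × ℝ → ℝ} {θ a : ℝ}
    (hc : ContDiffAt ℝ m c (θ, a)) (u : ℂ) (n : ℕ) (b : W) :
    ContDiffAt ℝ m (fun q : ℝ × ℝ × ℂ => ((c (q.1, q.2.1) : ℂ) * q.2.2 ^ n) • b) (θ, a, u) := by
  have h1 : ContDiffAt ℝ m (fun q : ℝ × ℝ × ℂ => (q.1, q.2.1)) (θ, a, u) :=
    (contDiff_fst.prodMk (contDiff_fst.comp contDiff_snd)).contDiffAt
  have h2 : ContDiffAt ℝ m (fun q : ℝ × ℝ × ℂ => c (q.1, q.2.1)) (θ, a, u) :=
    ContDiffAt.comp (g := c) (θ, a, u) hc h1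
  have h3 : ContDiffAt ℝ m
      (fun q : ℝ × ℝ × ℂ => ((c (q.1, q.2.1) : ℝ) : ℂ)) (θ, a, u) :=
    (Complex.ofRealCLM.contDiff.contDiffAt).comp (θ, a, u) h2
  have h4 : ContDiffAt ℝ m (fun q : ℝ × ℝ × ℂ => q.2.2 ^ n) (θ, a, u) :=
    ((contDiff_snd.comp contDiff_snd).pow n).contDiffAt
  exact (h3.mul h4).smul contDiffAt_const

end basic

namespace Par

variable (P : Par) {m : ℕ∞}

theorem sm_nuj (j : ℕ) : ContDiff ℝ m (fun θ => nu (P.ω ^ j * Circle.exp θ)) := by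
  have h : (fun θ => nu (P.ω ^ j * Circle.exp θ)) =
      fun θ => (1 - Real.cos (j * P.rcAl + θ)) / 2 := by
    funext θ; rw [rc_omega, rc_nu_exp]
  rw [h]
  fun_prop

theorem sm_Aj (j : ℕ) : ContDiff ℝ m (fun θ => P.A (P.ω ^ j * Circle.exp θ)) := by
  unfold A
  exact expNegInvGlue.contDiff.comp ((P.sm_nuj j).div_const _)

theorem sm_AR : ContDiff ℝ m P.AR := by
  unfold AR A
  exact expNegInvGlue.contDiff.comp (sm_nu.div_const _)

theorem sm_q (t : ℕ) : ContDiff ℝ m (fun θ => P.q (Circle.exp θ) t) := by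
  unfold q
  exact contDiff_prod fun j _ => contDiff_const.mul (P.sm_nuj j)

theorem sm_r {θ a : ℝ} (ha : 0 < a) (t : ℕ) (hq : P.q (Circle.exp θ) t ≠ 0) :
    ContDiffAt ℝ m (fun x : ℝ × ℝ => P.r (Circle.exp x.1) x.2 t) (θ, a) := by
  unfold r
  refine ContDiffAt.div ?_ ?_ (mul_ne_zero ha.ne' hq)
  · exact (P.sm_Aj t).contDiffAt.comp (θ, a) contDiffAt_fst
  · exact contDiffAt_snd.mul ((P.sm_q t).contDiffAt.comp (θ, a) contDiffAt_fst)

theorem sm_coef (θ : ℝ) {a : ℝ} (ha : 0 < a) (t : ℕ) :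
    ContDiffAt ℝ m (fun q : ℝ × ℝ => P.coef (Circle.exp q.1) q.2 t) (θ, a) := by
  classical
  by_cases hex : ∃ j, j < t ∧ nu (P.ω ^ j * Circle.exp θ) = 0
  · have hs := Nat.find_spec hex
    set s := Nat.find hex with hsdef
    have hlt : ∀ j < s, nu (P.ω ^ j * Circle.exp θ) ≠ 0 := by
      intro j hj h0
      exact Nat.find_min hex hj ⟨hj.trans hs.1, h0⟩
    have hq := P.rc_q_ne_zero hlt
    have hr : P.r (Circle.exp θ) a s < 1 / 2 := by
      unfold r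
      rw [P.A_eq_zero hs.2]; norm_num
    have h0 : (fun q : ℝ × ℝ => P.coef (Circle.exp q.1) q.2 t) =ᶠ[𝓝 (θ, a)] fun _ => 0 := by
      filter_upwards [P.rc_eventually_zero ha hq hr] with x hx
      exact hx t hs.1
    exact contDiffAt_const.congr_of_eventuallyEq h0
  · push Not at hex
    have hr : ∀ m' ≤ t,
        ContDiffAt ℝ m (fun x : ℝ × ℝ => P.r (Circle.exp x.1) x.2 m') (θ, a) := by
      intro m' hm
      exact P.sm_r ha m' (P.rc_q_ne_zero fun j hj => hex j (hj.trans_le hm))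
    unfold coef Pr
    refine ContDiffAt.div_const (ContDiffAt.mul (ContDiffAt.mul ?_ ?_) contDiffAt_snd) _
    · refine contDiffAt_prod fun m' hm => contDiffAt_const.sub ?_
      exact sm_kk.contDiffAt.comp (θ, a) (hr m' (Finset.mem_range.1 hm).le)
    · exact sm_S.contDiffAt.comp (θ, a) (hr t le_rfl)

theorem sm_eT (θ : ℝ) {a : ℝ} (ha : 0 < a) (u : ℂ) (t : ℕ) :
    ContDiffAt ℝ m (P.eT t) (θ, a, u) :=
  sm_term (P.sm_coef θ ha t) u (2 ^ t) (P.bas (-(t : ZMod P.p)))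

theorem sm_eR (θ : ℝ) {a : ℝ} (ha : 0 < a) (u : ℂ) : ContDiffAt ℝ m P.eR (θ, a, u) := by
  obtain ⟨T, hT⟩ := P.eR_eventually_eq θ ha u
  refine ContDiffAt.congr_of_eventuallyEq ?_ hT
  exact ContDiffAt.sum fun t _ => P.sm_eT θ ha u t

/-- off the zero section -/
theorem sm_WR {q : ℝ × ℂ} (hq : q.2 ≠ 0) : ContDiffAt ℝ m P.WR q := by
  have ha := P.rwa_pos hq
  have hb := RW.beta_pos ha
  have hA : ContDiffAt ℝ m (fun q : ℝ × ℂ => P.AR q.1) q :=
    (P.sm_AR.comp contDiff_fst).contDiffAt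
  have hn : ContDiffAt ℝ m (fun q : ℝ × ℂ => ‖q.2‖) q :=
    (contDiffAt_norm ℝ hq).comp q contDiffAt_snd
  have haC : ContDiffAt ℝ m (fun q : ℝ × ℂ => P.AR q.1 + ‖q.2‖) q := hA.add hn
  have hr : ContDiffAt ℝ m P.rrW q := hA.div haC ha.ne'
  have hk : ContDiffAt ℝ m (fun q => kk (P.rrW q)) q := sm_kk.contDiffAt.comp q hr
  have hν : ContDiffAt ℝ m (fun q : ℝ × ℂ => nu (Circle.exp q.1)) q :=
    (sm_nu.comp contDiff_fst).contDiffAt
  have hβ : ContDiffAt ℝ m (fun q : ℝ × ℂ => beta (P.AR q.1 + ‖q.2‖)) q :=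
    ContDiffAt.comp q (g := beta) (sm_beta ha) haC
  have hmx : ContDiffAt ℝ m
      (fun q : ℝ × ℂ => mx (nu (Circle.exp q.1)) (beta (P.AR q.1 + ‖q.2‖))) q :=
    ContDiffAt.comp q (g := fun p : ℝ × ℝ => mx p.1 p.2) (sm_mx _ hb) (hν.prodMk hβ)
  have hG : ContDiffAt ℝ m P.GmR q := (contDiffAt_const.mul hmx).mul haC
  have hnc : ContDiffAt ℝ m (fun q : ℝ × ℂ => (starRingEnd ℂ) q.2) q :=
    (Complex.conjCLE : ℂ →L[ℝ] ℂ).contDiff.contDiffAt.comp q contDiffAt_snd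
  have hdir : ContDiffAt ℝ m (fun q : ℝ × ℂ => (q.2 / ‖q.2‖) ^ 2) q := by
    have h1 : ContDiffAt ℝ m (fun q : ℝ × ℂ => q.2 * ((starRingEnd ℂ) q.2)⁻¹) q :=
      contDiffAt_snd.mul (hnc.inv (by simpa only [ne_eq, map_eq_zero] using hq))
    refine h1.congr_of_eventuallyEq ?_
    have : ∀ᶠ p : ℝ × ℂ in 𝓝 q, p.2 ≠ 0 := continuous_snd.continuousAt.eventually_ne hq
    filter_upwards [this] with p hp
    exact RW.dir_eq hp
  have hsh : ContDiffAt ℝ m (fun q : ℝ × ℂ => Complex.arg (P.ω : ℂ) + q.1) q :=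
    contDiffAt_const.add contDiffAt_fst
  have he : ContDiffAt ℝ m
      (fun q : ℝ × ℂ => P.eR (Complex.arg (P.ω : ℂ) + q.1, P.GmR q, (q.2 / ‖q.2‖) ^ 2)) q :=
    ContDiffAt.comp q (g := P.eR) (P.sm_eR _ (P.GmR_pos hq) _)
      (hsh.prodMk (hG.prodMk hdir))
  have hfun : P.WR = fun q => kk (P.rrW q) •
    P.eR (Complex.arg (P.ω : ℂ) + q.1, P.GmR q, (q.2 / ‖q.2‖) ^ 2) := funext P.WR_eq
  rw [hfun]
  exact hk.smul he

/-- near the zero section over `ζ ≠ 1` the wrapping map vanishes -/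
theorem sm_WR_zero {q : ℝ × ℂ} (hq : 0 < P.AR q.1) (hz : q.2 = 0) :
    P.WR =ᶠ[𝓝 q] fun _ => 0 := by
  have hA : ContinuousAt (fun q : ℝ × ℂ => P.AR q.1) q :=
    (P.AR_contDiff.continuous.comp continuous_fst).continuousAt
  have hc : ContinuousAt P.rrW q :=
    hA.div (hA.add (continuous_snd.norm.continuousAt)) (by
      change P.AR q.1 + ‖q.2‖ ≠ 0
      rw [hz, norm_zero, add_zero]; exact hq.ne')
  have hr : 3 / 4 < P.rrW q := by
    unfold rrW
    rw [hz, norm_zero, add_zero, div_self hq.ne']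
    norm_num
  filter_upwards [hc.eventually (lt_mem_nhds hr)] with p hp
  rw [WR_eq, RW.kk_eq_zero hp.le, zero_smul]

theorem AR_pos_of {θ : ℝ} (h : Circle.exp θ ≠ 1) : 0 < P.AR θ := by
  refine P.A_pos ?_
  unfold nu
  have h1 : ((Circle.exp θ : Circle) : ℂ) - 1 ≠ 0 := by
    intro h2
    apply h
    apply Subtype.ext
    exact sub_eq_zero.1 h2
  positivity

/-- **the wrapping map is `C^∞` off `(1, 0)`** -/
theorem W_smoothAt (θ : ℝ) (z : ℂ) (h : Circle.exp θ ≠ 1 ∨ z ≠ 0) :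
    ContDiffAt ℝ ∞ (fun q : ℝ × ℂ => P.W (Circle.exp q.1) q.2) (θ, z) := by
  by_cases hz : z = 0
  · have h1 : Circle.exp θ ≠ 1 := by
      rcases h with h | h
      · exact h
      · exact absurd hz h
    exact contDiffAt_const.congr_of_eventuallyEq
      (P.sm_WR_zero (q := (θ, z)) (P.AR_pos_of h1) hz)
  · exact P.sm_WR (m := ⊤) (q := (θ, z)) hz

theorem sm_NN : ContDiff ℝ m P.NN := by
  unfold NN
  exact (contDiff_snd.fst.norm_sq ℝ).add (contDiff_snd.snd.norm_sq ℝ)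

theorem sm_F1 {q : P.X} (h : 0 < P.AR q.1 ∨ 0 < P.NN q) :
    ContDiffAt ℝ m (fun q : ℝ × ℂ × P.V => P.F1 (Circle.exp q.1) q.2.1 q.2.2) q := by
  have e : (fun q : ℝ × ℂ × P.V => P.F1 (Circle.exp q.1) q.2.1 q.2.2) = fun q : P.X =>
      nu (Circle.exp q.1) • ((2 * P.Λ) • (P.chi2 (Circle.exp q.1) (P.NN q) •
      (P.L1 q + P.chi1 (Circle.exp q.1) (P.NN q) • P.L2 q))) := by
    funext q
    exact P.F1_eq q
  rw [e]
  have hA : ContDiffAt ℝ m (fun q : P.X => P.A (Circle.exp q.1)) q :=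
    (P.sm_AR.comp contDiff_fst).contDiffAt
  have hN : ContDiffAt ℝ m P.NN q := P.sm_NN.contDiffAt
  have hA0 : 0 ≤ P.A (Circle.exp q.1) := P.AR_nonneg q.1
  have hN0 := P.NN_nonneg q
  have hpos : ∀ k : ℕ, 0 < P.NN q + P.A (Circle.exp q.1) ^ k := by
    intro k
    rcases h with h | h
    · have h' : 0 < P.A (Circle.exp q.1) := h
      have := pow_pos h' k
      linarith
    · have := pow_nonneg hA0 k
      linarith
  have h1 : ContDiffAt ℝ m (fun q : P.X => P.chi1 (Circle.exp q.1) (P.NN q)) q := by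
    unfold chi1
    exact sm_cutA.contDiffAt.comp q (hN.div (hN.add (hA.pow 4)) (hpos 4).ne')
  have h2 : ContDiffAt ℝ m (fun q : P.X => P.chi2 (Circle.exp q.1) (P.NN q)) q := by
    unfold chi2
    exact sm_cutB.contDiffAt.comp q (hN.div (hN.add (hA.pow 2)) (hpos 2).ne')
  have hν : ContDiffAt ℝ m (fun q : P.X => nu (Circle.exp q.1)) q :=
    (sm_nu.comp contDiff_fst).contDiffAt
  have hL : ContDiffAt ℝ m (fun q : P.X =>
      P.L1 q + P.chi1 (Circle.exp q.1) (P.NN q) • P.L2 q) q :=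
    P.L1.contDiff.contDiffAt.add (h1.smul P.L2.contDiff.contDiffAt)
  have h3 : ContDiffAt ℝ m (fun q : P.X => P.chi2 (Circle.exp q.1) (P.NN q) •
      (P.L1 q + P.chi1 (Circle.exp q.1) (P.NN q) • P.L2 q)) q := h2.smul hL
  have h5 : ContDiffAt ℝ m (fun q : P.X => (2 * P.Λ) • (P.chi2 (Circle.exp q.1) (P.NN q) •
      (P.L1 q + P.chi1 (Circle.exp q.1) (P.NN q) • P.L2 q))) q :=
    h3.const_smul (2 * P.Λ)
  exact hν.smul h5

/-- **the fibre map is `C^∞` off the sphere `ζ = 1, z = 0`** -/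
theorem F_smoothAt (θ : ℝ) (z : ℂ) (v : P.V) (h : Circle.exp θ ≠ 1 ∨ z ≠ 0) :
    ContDiffAt ℝ ∞ (fun q : ℝ × ℂ × P.V => P.F (Circle.exp q.1) q.2.1 q.2.2) (θ, z, v) := by
  have h1 : ContDiffAt ℝ ∞ (fun q : ℝ × ℂ × P.V => ((q.1, q.2.1) : ℝ × ℂ)) (θ, z, v) :=
    (contDiff_fst.prodMk (contDiff_fst.comp contDiff_snd)).contDiffAt
  have h2 : ContDiffAt ℝ ∞ (fun q : ℝ × ℂ × P.V => P.W (Circle.exp q.1) q.2.1) (θ, z, v) :=
    ContDiffAt.comp (g := fun q : ℝ × ℂ => P.W (Circle.exp q.1) q.2)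
      (f := fun q : ℝ × ℂ × P.V => ((q.1, q.2.1) : ℝ × ℂ)) (θ, z, v) (P.W_smoothAt θ z h) h1
  have h4 : 0 < P.AR θ ∨ 0 < P.NN (θ, z, v) := by
    rcases h with h | h
    · exact Or.inl (P.AR_pos_of h)
    · right
      unfold NN
      have := norm_pos_iff.2 h
      positivity
  have h3 := (P.sm_F1 (m := ⊤) (q := (θ, z, v)) h4).add h2
  have e : (fun q : ℝ × ℂ × P.V => P.F (Circle.exp q.1) q.2.1 q.2.2) =
      fun q => P.F1 (Circle.exp q.1) q.2.1 q.2.2 + P.W (Circle.exp q.1) q.2.1 := by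
    funext q
    exact P.F_eq_F1_add _ _ _
  rw [e]
  exact h3

end Par

end Vale.Agent.P103
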